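import Mathlib

set_option autoImplicit false

/-!
P052: coordinates with respect to a regular tetrahedron of edge one in four-space.
-/

namespace Vale.Agent.P052.R3.H473

open scoped RealInnerProductSpace

abbrev E4 := EuclideanSpace ℝ (Fin 4)

/-- the quadratic form of the tetrahedron -/
theorem norm_abc {a b c n : E4} (haa : ⟪a, a⟫ = 1) (hbb : ⟪b, b⟫ = 1) (hcc : ⟪c, c⟫ = 1)
    (hab : ⟪a, b⟫ = 1 / 2) (hac : ⟪a, c⟫ = 1 / 2) (hbc : ⟪b, c⟫ = 1 / 2) (hnn : ⟪n, n⟫ = 1)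
    (han : ⟪a, n⟫ = 0) (hbn : ⟪b, n⟫ = 0) (hcn : ⟪c, n⟫ = 0) (α β γ ζ : ℝ) :
    ‖α • a + β • b + γ • c + ζ • n‖ ^ 2 =
      α ^ 2 + β ^ 2 + γ ^ 2 + α * β + α * γ + β * γ + ζ ^ 2 := by
  rw [← real_inner_self_eq_norm_sq]
  simp only [inner_add_left, inner_add_right, real_inner_smul_left, real_inner_smul_right]
  rw [real_inner_comm a b, real_inner_comm a c, real_inner_comm b c, real_inner_comm a n,
    real_inner_comm b n, real_inner_comm c n]
  simp only [haa, hbb, hcc, hab, hac, hbc, hnn, han, hbn, hcn]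
  ring

theorem inner_of_dist {a b : E4} (ha : ‖a‖ = 1) (hb : ‖b‖ = 1) (hab : ‖a - b‖ = 1) :
    ⟪a, b⟫ = 1 / 2 := by
  have h := norm_sub_sq_real a b
  rw [ha, hb, hab] at h
  linarith

/-- A unit vector orthogonal to three differences. -/
theorem exists_normal (v : Fin 4 → E4) : ∃ n : E4, ‖n‖ = 1 ∧ ∀ i, ⟪v i - v 0, n⟫ = 0 := by
  let W : Submodule ℝ E4 := Submodule.span ℝ (Set.range fun i : Fin 3 => v i.succ - v 0)
  have hW : Module.finrank ℝ W ≤ 3 := by
    have h := finrank_range_le_card (R := ℝ) (fun i : Fin 3 => v i.succ - v 0)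
    simpa [Set.finrank, W] using h
  have h4 : Module.finrank ℝ W + Module.finrank ℝ Wᗮ = 4 := by
    have h := Submodule.finrank_add_finrank_orthogonal W
    simpa using h
  have hpos : 0 < Module.finrank ℝ Wᗮ := by omega
  have : Nontrivial Wᗮ := Module.finrank_pos_iff.1 hpos
  obtain ⟨m, hm⟩ := exists_ne (0 : Wᗮ)
  have hm0 : (m : E4) ≠ 0 := fun h => hm (Subtype.ext h)
  refine ⟨(‖(m : E4)‖⁻¹ : ℝ) • (m : E4), ?_, ?_⟩
  · rw [norm_smul, norm_inv, norm_norm, inv_mul_cancel₀ (norm_ne_zero_iff.2 hm0)]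
  · intro i
    rw [real_inner_smul_right]
    have h0 : ⟪v i - v 0, (m : E4)⟫ = 0 := by
      refine Fin.cases ?_ (fun j => ?_) i
      · simp
      · exact (Submodule.mem_orthogonal W (m : E4)).1 m.2 _
          (Submodule.subset_span ⟨j, rfl⟩)
    rw [h0, mul_zero]

/-- The data of a regular tetrahedron with unit edges and a unit normal. -/
structure Tet (v : Fin 4 → E4) (n : E4) : Prop where
  edge : ∀ i j, i ≠ j → dist (v i) (v j) = 1
  unit : ‖n‖ = 1
  orth : ∀ i, ⟪v i - v 0, n⟫ = 0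

theorem Tet.form {v : Fin 4 → E4} {n : E4} (h : Tet v n) (α β γ ζ : ℝ) :
    ‖α • (v 1 - v 0) + β • (v 2 - v 0) + γ • (v 3 - v 0) + ζ • n‖ ^ 2 =
      α ^ 2 + β ^ 2 + γ ^ 2 + α * β + α * γ + β * γ + ζ ^ 2 := by
  have e1 : ‖v 1 - v 0‖ = 1 := by rw [← dist_eq_norm]; exact h.edge 1 0 (by decide)
  have e2 : ‖v 2 - v 0‖ = 1 := by rw [← dist_eq_norm]; exact h.edge 2 0 (by decide)
  have e3 : ‖v 3 - v 0‖ = 1 := by rw [← dist_eq_norm]; exact h.edge 3 0 (by decide)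
  have e12 : ‖(v 1 - v 0) - (v 2 - v 0)‖ = 1 := by
    rw [sub_sub_sub_cancel_right, ← dist_eq_norm]; exact h.edge 1 2 (by decide)
  have e13 : ‖(v 1 - v 0) - (v 3 - v 0)‖ = 1 := by
    rw [sub_sub_sub_cancel_right, ← dist_eq_norm]; exact h.edge 1 3 (by decide)
  have e23 : ‖(v 2 - v 0) - (v 3 - v 0)‖ = 1 := by
    rw [sub_sub_sub_cancel_right, ← dist_eq_norm]; exact h.edge 2 3 (by decide)
  refine norm_abc ?_ ?_ ?_ (inner_of_dist e1 e2 e12) (inner_of_dist e1 e3 e13)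
    (inner_of_dist e2 e3 e23) ?_ (h.orth 1) (h.orth 2) (h.orth 3) α β γ ζ
  · rw [real_inner_self_eq_norm_sq, e1]; norm_num
  · rw [real_inner_self_eq_norm_sq, e2]; norm_num
  · rw [real_inner_self_eq_norm_sq, e3]; norm_num
  · rw [real_inner_self_eq_norm_sq, h.unit]; norm_num

/-- Every point has coordinates. -/
theorem Tet.coord {v : Fin 4 → E4} {n : E4} (h : Tet v n) (x : E4) :
    ∃ α β γ ζ : ℝ, x - v 0 = α • (v 1 - v 0) + β • (v 2 - v 0) + γ • (v 3 - v 0) + ζ • n := by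
  let b : Fin 4 → E4 := ![v 1 - v 0, v 2 - v 0, v 3 - v 0, n]
  have hli : LinearIndependent ℝ b := by
    rw [Fintype.linearIndependent_iff]
    intro g hg
    rw [Fin.sum_univ_four] at hg
    have h1 : g 0 • (v 1 - v 0) + g 1 • (v 2 - v 0) + g 2 • (v 3 - v 0) + g 3 • n = 0 := hg
    have h2 := h.form (g 0) (g 1) (g 2) (g 3)
    rw [h1, norm_zero] at h2
    have q0 : g 0 = 0 := by
      have h5 : g 0 ^ 2 ≤ 0 := by
        nlinarith [sq_nonneg (g 0 + g 1), sq_nonneg (g 0 + g 2), sq_nonneg (g 1 + g 2),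
          sq_nonneg (g 0 + g 1 + g 2), sq_nonneg (g 0), sq_nonneg (g 1), sq_nonneg (g 2),
          sq_nonneg (g 3)]
      exact pow_eq_zero_iff (two_ne_zero) |>.1 (le_antisymm h5 (sq_nonneg _))
    have q1 : g 1 = 0 := by
      have h5 : g 1 ^ 2 ≤ 0 := by
        nlinarith [sq_nonneg (g 0 + g 1), sq_nonneg (g 0 + g 2), sq_nonneg (g 1 + g 2),
          sq_nonneg (g 0 + g 1 + g 2), sq_nonneg (g 0), sq_nonneg (g 1), sq_nonneg (g 2),
          sq_nonneg (g 3)]
      exact pow_eq_zero_iff (two_ne_zero) |>.1 (le_antisymm h5 (sq_nonneg _))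
    have q2 : g 2 = 0 := by
      have h5 : g 2 ^ 2 ≤ 0 := by
        nlinarith [sq_nonneg (g 0 + g 1), sq_nonneg (g 0 + g 2), sq_nonneg (g 1 + g 2),
          sq_nonneg (g 0 + g 1 + g 2), sq_nonneg (g 0), sq_nonneg (g 1), sq_nonneg (g 2),
          sq_nonneg (g 3)]
      exact pow_eq_zero_iff (two_ne_zero) |>.1 (le_antisymm h5 (sq_nonneg _))
    have q3 : g 3 = 0 := by
      have h5 : g 3 ^ 2 ≤ 0 := by
        nlinarith [sq_nonneg (g 0 + g 1), sq_nonneg (g 0 + g 2), sq_nonneg (g 1 + g 2),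
          sq_nonneg (g 0 + g 1 + g 2), sq_nonneg (g 0), sq_nonneg (g 1), sq_nonneg (g 2),
          sq_nonneg (g 3)]
      exact pow_eq_zero_iff (two_ne_zero) |>.1 (le_antisymm h5 (sq_nonneg _))
    intro i
    fin_cases i
    · exact q0
    · exact q1
    · exact q2
    · exact q3
  have hspan : Submodule.span ℝ (Set.range b) = ⊤ := by
    apply hli.span_eq_top_of_card_eq_finrank'
    simp
  have hx : x - v 0 ∈ Submodule.span ℝ (Set.range b) := by rw [hspan]; trivial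
  obtain ⟨c, hc⟩ := (Submodule.mem_span_range_iff_exists_fun ℝ).1 hx
  rw [Fin.sum_univ_four] at hc
  exact ⟨c 0, c 1, c 2, c 3, hc.symm⟩

/-- The height of a point. -/
theorem Tet.height {v : Fin 4 → E4} {n : E4} (h : Tet v n) {x : E4} {α β γ ζ : ℝ}
    (hx : x - v 0 = α • (v 1 - v 0) + β • (v 2 - v 0) + γ • (v 3 - v 0) + ζ • n) :
    ⟪x - v 0, n⟫ = ζ := by
  rw [hx]
  simp only [inner_add_left, real_inner_smul_left, h.orth 1, h.orth 2, h.orth 3]
  rw [real_inner_self_eq_norm_sq, h.unit]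
  ring

end Vale.Agent.P052.R3.H473
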