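import Mathlib

set_option autoImplicit false

/-!
P052: coordinates with respect to five points at mutual distance one in five-space.
-/

namespace Vale.Agent.P052.R3.H473F

open scoped RealInnerProductSpace

abbrev E5 := EuclideanSpace ℝ (Fin 5)

/-- the quadratic form of the simplex -/
theorem norm_abcd {a b c d n : E5} (haa : ⟪a, a⟫ = 1) (hbb : ⟪b, b⟫ = 1) (hcc : ⟪c, c⟫ = 1)
    (hdd : ⟪d, d⟫ = 1)
    (hab : ⟪a, b⟫ = 1 / 2) (hac : ⟪a, c⟫ = 1 / 2) (had : ⟪a, d⟫ = 1 / 2) (hbc : ⟪b, c⟫ = 1 / 2)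
    (hbd : ⟪b, d⟫ = 1 / 2) (hcd : ⟪c, d⟫ = 1 / 2) (hnn : ⟪n, n⟫ = 1)
    (han : ⟪a, n⟫ = 0) (hbn : ⟪b, n⟫ = 0) (hcn : ⟪c, n⟫ = 0) (hdn : ⟪d, n⟫ = 0)
    (α β γ δ ζ : ℝ) :
    ‖α • a + β • b + γ • c + δ • d + ζ • n‖ ^ 2 =
      α ^ 2 + β ^ 2 + γ ^ 2 + δ ^ 2 + α * β + α * γ + α * δ + β * γ + β * δ + γ * δ + ζ ^ 2 := by
  rw [← real_inner_self_eq_norm_sq]
  simp only [inner_add_left, inner_add_right, real_inner_smul_left, real_inner_smul_right]
  rw [real_inner_comm a b, real_inner_comm a c, real_inner_comm a d, real_inner_comm b c,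
    real_inner_comm b d, real_inner_comm c d, real_inner_comm a n,
    real_inner_comm b n, real_inner_comm c n, real_inner_comm d n]
  simp only [haa, hbb, hcc, hdd, hab, hac, had, hbc, hbd, hcd, hnn, han, hbn, hcn, hdn]
  ring

theorem inner_of_dist {a b : E5} (ha : ‖a‖ = 1) (hb : ‖b‖ = 1) (hab : ‖a - b‖ = 1) :
    ⟪a, b⟫ = 1 / 2 := by
  have h := norm_sub_sq_real a b
  rw [ha, hb, hab] at h
  linarith

/-- A unit vector orthogonal to four differences. -/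
theorem exists_normal (v : Fin 5 → E5) : ∃ n : E5, ‖n‖ = 1 ∧ ∀ i, ⟪v i - v 0, n⟫ = 0 := by
  let W : Submodule ℝ E5 := Submodule.span ℝ (Set.range fun i : Fin 4 => v i.succ - v 0)
  have hW : Module.finrank ℝ W ≤ 4 := by
    have h := finrank_range_le_card (R := ℝ) (fun i : Fin 4 => v i.succ - v 0)
    simpa [Set.finrank, W] using h
  have h4 : Module.finrank ℝ W + Module.finrank ℝ Wᗮ = 5 := by
    have h := Submodule.finrank_add_finrank_orthogonal W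
    simpa using h
  have hpos : 0 < Module.finrank ℝ Wᗮ := by omega
  have : Nontrivial Wᗮ := Module.finrank_pos_iff.1 hpos
  obtain ⟨m, hm⟩ := exists_ne (0 : Wᗮ)
  have hm0 : (m : E5) ≠ 0 := fun h => hm (Subtype.ext h)
  refine ⟨(‖(m : E5)‖⁻¹ : ℝ) • (m : E5), ?_, ?_⟩
  · rw [norm_smul, norm_inv, norm_norm, inv_mul_cancel₀ (norm_ne_zero_iff.2 hm0)]
  · intro i
    rw [real_inner_smul_right]
    have h0 : ⟪v i - v 0, (m : E5)⟫ = 0 := by
      refine Fin.cases ?_ (fun j => ?_) i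
      · simp
      · exact (Submodule.mem_orthogonal W (m : E5)).1 m.2 _
          (Submodule.subset_span ⟨j, rfl⟩)
    rw [h0, mul_zero]

/-- The data of five points at mutual distance one and a unit normal. -/
structure Tet (v : Fin 5 → E5) (n : E5) : Prop where
  edge : ∀ i j, i ≠ j → dist (v i) (v j) = 1
  unit : ‖n‖ = 1
  orth : ∀ i, ⟪v i - v 0, n⟫ = 0

theorem Tet.n1 {v : Fin 5 → E5} {n : E5} (h : Tet v n) {i : Fin 5} (hi : i ≠ 0) :
    ‖v i - v 0‖ = 1 := by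
  rw [← dist_eq_norm]; exact h.edge i 0 hi

theorem Tet.i1 {v : Fin 5 → E5} {n : E5} (h : Tet v n) {i : Fin 5} (hi : i ≠ 0) :
    ⟪v i - v 0, v i - v 0⟫ = 1 := by
  rw [real_inner_self_eq_norm_sq, h.n1 hi]; norm_num

theorem Tet.i2 {v : Fin 5 → E5} {n : E5} (h : Tet v n) {i j : Fin 5} (hi : i ≠ 0) (hj : j ≠ 0)
    (hij : i ≠ j) : ⟪v i - v 0, v j - v 0⟫ = 1 / 2 := by
  refine inner_of_dist (h.n1 hi) (h.n1 hj) ?_
  rw [sub_sub_sub_cancel_right, ← dist_eq_norm]; exact h.edge i j hij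

theorem Tet.form {v : Fin 5 → E5} {n : E5} (h : Tet v n) (α β γ δ ζ : ℝ) :
    ‖α • (v 1 - v 0) + β • (v 2 - v 0) + γ • (v 3 - v 0) + δ • (v 4 - v 0) + ζ • n‖ ^ 2 =
      α ^ 2 + β ^ 2 + γ ^ 2 + δ ^ 2 + α * β + α * γ + α * δ + β * γ + β * δ + γ * δ + ζ ^ 2 := by
  refine norm_abcd (h.i1 (by decide)) (h.i1 (by decide)) (h.i1 (by decide)) (h.i1 (by decide))
    (h.i2 (by decide) (by decide) (by decide)) (h.i2 (by decide) (by decide) (by decide))
    (h.i2 (by decide) (by decide) (by decide)) (h.i2 (by decide) (by decide) (by decide))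
    (h.i2 (by decide) (by decide) (by decide)) (h.i2 (by decide) (by decide) (by decide))
    ?_ (h.orth 1) (h.orth 2) (h.orth 3) (h.orth 4) α β γ δ ζ
  rw [real_inner_self_eq_norm_sq, h.unit]; norm_num

theorem sos {a b c d z : ℝ} (h : (0 : ℝ) = a ^ 2 + b ^ 2 + c ^ 2 + d ^ 2 + a * b + a * c + a * d +
    b * c + b * d + c * d + z ^ 2) : a = 0 ∧ b = 0 ∧ c = 0 ∧ d = 0 ∧ z = 0 := by
  have e : a ^ 2 + b ^ 2 + c ^ 2 + d ^ 2 + (a + b + c + d) ^ 2 + 2 * z ^ 2 = 0 := by linarith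
  have h1 := sq_nonneg a
  have h2 := sq_nonneg b
  have h3 := sq_nonneg c
  have h4 := sq_nonneg d
  have h5 := sq_nonneg (a + b + c + d)
  have h6 := sq_nonneg z
  refine ⟨?_, ?_, ?_, ?_, ?_⟩ <;> exact pow_eq_zero_iff (two_ne_zero) |>.1 (by linarith)

/-- Every point has coordinates. -/
theorem Tet.coord {v : Fin 5 → E5} {n : E5} (h : Tet v n) (x : E5) :
    ∃ α β γ δ ζ : ℝ, x - v 0 = α • (v 1 - v 0) + β • (v 2 - v 0) + γ • (v 3 - v 0) +
      δ • (v 4 - v 0) + ζ • n := by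
  let b : Fin 5 → E5 := ![v 1 - v 0, v 2 - v 0, v 3 - v 0, v 4 - v 0, n]
  have hli : LinearIndependent ℝ b := by
    rw [Fintype.linearIndependent_iff]
    intro g hg
    rw [Fin.sum_univ_five] at hg
    have h1 : g 0 • (v 1 - v 0) + g 1 • (v 2 - v 0) + g 2 • (v 3 - v 0) + g 3 • (v 4 - v 0) +
      g 4 • n = 0 := hg
    have h2 := h.form (g 0) (g 1) (g 2) (g 3) (g 4)
    rw [h1, norm_zero] at h2
    obtain ⟨q0, q1, q2, q3, q4⟩ := sos (by linarith : (0 : ℝ) = g 0 ^ 2 + g 1 ^ 2 + g 2 ^ 2 +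
      g 3 ^ 2 + g 0 * g 1 + g 0 * g 2 + g 0 * g 3 + g 1 * g 2 + g 1 * g 3 + g 2 * g 3 + g 4 ^ 2)
    intro i
    fin_cases i
    · exact q0
    · exact q1
    · exact q2
    · exact q3
    · exact q4
  have hspan : Submodule.span ℝ (Set.range b) = ⊤ := by
    apply hli.span_eq_top_of_card_eq_finrank'
    simp
  have hx : x - v 0 ∈ Submodule.span ℝ (Set.range b) := by rw [hspan]; trivial
  obtain ⟨c, hc⟩ := (Submodule.mem_span_range_iff_exists_fun ℝ).1 hx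
  rw [Fin.sum_univ_five] at hc
  exact ⟨c 0, c 1, c 2, c 3, c 4, hc.symm⟩

/-- The height of a point. -/
theorem Tet.height {v : Fin 5 → E5} {n : E5} (h : Tet v n) {x : E5} {α β γ δ ζ : ℝ}
    (hx : x - v 0 = α • (v 1 - v 0) + β • (v 2 - v 0) + γ • (v 3 - v 0) + δ • (v 4 - v 0) +
      ζ • n) : ⟪x - v 0, n⟫ = ζ := by
  rw [hx]
  simp only [inner_add_left, real_inner_smul_left, h.orth 1, h.orth 2, h.orth 3, h.orth 4]
  rw [real_inner_self_eq_norm_sq, h.unit]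
  ring

end Vale.Agent.P052.R3.H473F
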