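import Vale.Agent.P052.R3.H473.Near4
import Vale.Agent.P052.R3.H506.RCell
import Vale.Agent.P052.R3.H760.RCap

set_option autoImplicit false

/-!
P052: the two real cores and the theorem on tetrahedra in four-space.
-/

namespace Vale.Agent.P052.R3.H473

theorem sum_sq_le (e : Fin 4 → ℝ) (he : ∀ j, 0 ≤ e j) {A : ℝ} (hA : ∀ j, e j ≤ A) :
    ∑ j, e j ^ 2 ≤ A * ∑ j, e j := by
  rw [Finset.mul_sum]
  refine Finset.sum_le_sum fun j _ => ?_
  rw [sq]
  exact mul_le_mul_of_nonneg_right (hA j) (he j)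

theorem lin_le (e f : Fin 4 → ℝ) {A B : ℝ} (hA : ∀ j, e j ≤ A) (hB : ∀ j, f j ≤ B) :
    A * ∑ j, f j + B * ∑ j, e j - 4 * (A * B) ≤ ∑ j, e j * f j := by
  have h : 0 ≤ ∑ j, (A - e j) * (B - f j) :=
    Finset.sum_nonneg fun j _ => mul_nonneg (sub_nonneg.2 (hA j)) (sub_nonneg.2 (hB j))
  simp only [Fin.sum_univ_four] at h ⊢
  linarith

theorem kappa_lt (e : Fin 4 → ℝ) {A ka : ℝ} (hA : ∀ j, e j ≤ A) (se : ∑ j, e j = 1 + 4 * ka) :
    ka < A := by
  rw [Fin.sum_univ_four] at se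
  linarith [hA 0, hA 1, hA 2, hA 3]

theorem cellsStmt : CellsStmt := by
  intro e f ka om z z' he he1 hf hf1 se se2 sf sf2 z1 z2 z1' z2' i hi hi'
  have hCA : 1 - 2 * z ^ 2 + 4 * ka ^ 2 ≤ e i * (1 + 4 * ka) := by
    rw [← se, ← se2]; exact sum_sq_le e he hi
  have hCB : 1 - 2 * z' ^ 2 + 4 * om ^ 2 ≤ f i * (1 + 4 * om) := by
    rw [← sf, ← sf2]; exact sum_sq_le f hf hi'
  have hz : z ^ 2 ≤ 1 / 4 := by nlinarith
  have hz' : z' ^ 2 ≤ 1 / 4 := by nlinarith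
  have hka : -(1 / 4) < ka := by
    by_contra hc
    push Not at hc
    have h1 : e i * (1 + 4 * ka) ≤ 0 :=
      mul_nonpos_of_nonneg_of_nonpos (he i) (by linarith)
    nlinarith [sq_nonneg ka]
  have hom : -(1 / 4) < om := by
    by_contra hc
    push Not at hc
    have h1 : f i * (1 + 4 * om) ≤ 0 :=
      mul_nonpos_of_nonneg_of_nonpos (hf i) (by linarith)
    nlinarith [sq_nonneg om]
  have h1 : e i * f i ≤ ∑ j, e j * f j :=
    Finset.single_le_sum (f := fun j => e j * f j) (fun j _ => mul_nonneg (he j) (hf j))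
      (Finset.mem_univ i)
  have h2 : e i * (1 + 4 * om) + f i * (1 + 4 * ka) - 4 * (e i * f i) ≤ ∑ j, e j * f j := by
    rw [← se, ← sf]; exact lin_le e f hi hi'
  exact Vale.Agent.P052.R3.H506.real_cell (he1 i) (hf1 i) (kappa_lt e hi se)
    (kappa_lt f hi' sf) hka hom z1 z2 z1' z2' hCA hCB h1 h2

theorem capStmt : CapStmt := by
  intro e f ka om z z' he he1 hf hf1 se se2 sf sf2 z1 z2 z1' z2'
  obtain ⟨i, hi⟩ := Finite.exists_max e
  obtain ⟨k, hk⟩ := Finite.exists_max f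
  have h0 : 0 ≤ ∑ j, e j * f j := Finset.sum_nonneg fun j _ => mul_nonneg (he j) (hf j)
  have hka : -(1 / 4) ≤ ka := by
    have : 0 ≤ ∑ j, e j := Finset.sum_nonneg fun j _ => he j
    linarith
  have hom : -(1 / 4) ≤ om := by
    have : 0 ≤ ∑ j, f j := Finset.sum_nonneg fun j _ => hf j
    linarith
  have hS : ∀ g : Fin 4 → ℝ, (∀ j, 0 ≤ g j) → ∑ j, g j ^ 2 ≤ (∑ j, g j) ^ 2 := by
    intro g hg
    simp only [Fin.sum_univ_four]
    nlinarith [mul_nonneg (hg 0) (hg 1), mul_nonneg (hg 0) (hg 2), mul_nonneg (hg 0) (hg 3),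
      mul_nonneg (hg 1) (hg 2), mul_nonneg (hg 1) (hg 3), mul_nonneg (hg 2) (hg 3)]
  have hSA : 1 - 2 * z ^ 2 + 4 * ka ^ 2 ≤ (1 + 4 * ka) ^ 2 := by
    rw [← se, ← se2]; exact hS e he
  have hSB : 1 - 2 * z' ^ 2 + 4 * om ^ 2 ≤ (1 + 4 * om) ^ 2 := by
    rw [← sf, ← sf2]; exact hS f hf
  have h2 : e i * (1 + 4 * om) + f k * (1 + 4 * ka) - 4 * (e i * f k) ≤ ∑ j, e j * f j := by
    rw [← se, ← sf]; exact lin_le e f hi hk
  have h3 : 0 ≤ f k ^ 2 * (1 - 2 * z ^ 2 + 4 * ka ^ 2) + e i ^ 2 * (1 - 2 * z' ^ 2 + 4 * om ^ 2) +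
      2 * (e i * f k) * (∑ j, e j * f j) - 2 * (e i * f k ^ 2) * (1 + 4 * ka) -
      2 * (e i ^ 2 * f k) * (1 + 4 * om) + 4 * (e i ^ 2 * f k ^ 2) := by
    rw [← se, ← sf, ← se2, ← sf2]
    have h4 : 0 ≤ ∑ j, (f k * e j + e i * f j - e i * f k) ^ 2 :=
      Finset.sum_nonneg fun j _ => sq_nonneg _
    simp only [Fin.sum_univ_four] at h4 ⊢
    nlinarith [h4]
  exact Vale.Agent.P052.R3.H760.real_cap (he1 i) (hf1 k) (kappa_lt e hi se)
    (kappa_lt f hk sf) hka hom z1 z1' hSA hSB h0 h2 h3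

/-- A bounded set of four-space whose closure contains four points at mutual distances at least
`(1 - ε)` times its diameter is a union of five sets of smaller diameter. -/
theorem tetra_near : ∃ ε : ℝ, 0 < ε ∧
    ∀ X : Set (EuclideanSpace ℝ (Fin 4)), Bornology.IsBounded X → 0 < Metric.diam X →
      ∀ t : Fin 4 → EuclideanSpace ℝ (Fin 4), (∀ a, t a ∈ closure X) →
      (∀ a b, a ≠ b → (1 - ε) * Metric.diam X ≤ dist (t a) (t b)) → IsSmallerCover X 5 :=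
  tetra_near_of cellsStmt capStmt

/-- The exact form. -/
theorem tetra (X : Set (EuclideanSpace ℝ (Fin 4))) (hX : Bornology.IsBounded X)
    (hD : 0 < Metric.diam X) (t : Fin 4 → EuclideanSpace ℝ (Fin 4)) (ht : ∀ a, t a ∈ closure X)
    (hd : ∀ a b, a ≠ b → dist (t a) (t b) = Metric.diam X) : IsSmallerCover X 5 := by
  obtain ⟨ε, hε, h⟩ := tetra_near
  exact h X hX hD t ht fun a b hab => by rw [hd a b hab]; nlinarith

end Vale.Agent.P052.R3.H473
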