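import Mathlib

/-!
P052: the real inequality of the cap for five points in five-space.
-/

namespace Vale.Agent.P052.R3.H473F

theorem real_cap5 {κ ω z z' E : ℝ} (hz : 3 / 16 ≤ z) (hz1 : z ≤ 1) (hz' : 3 / 16 ≤ z')
    (hz'1 : z' ≤ 1) (a : 5 * κ ^ 2 ≤ 5 * κ + 2 * z ^ 2) (b : 5 * ω ^ 2 ≤ 5 * ω + 2 * z' ^ 2)
    (h0 : 0 ≤ E)
    (hc : (2 + 5 * κ + 5 * ω) ^ 2 ≤ 5 * ((1 - 2 * z ^ 2 + 5 * κ ^ 2) +
      (1 - 2 * z' ^ 2 + 5 * ω ^ 2) + 2 * E)) :
    5 * (κ * ω) < E + 2 * (z * z') := by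
  by_contra hcon
  push Not at hcon
  have zz : (3 / 16 : ℝ) * (3 / 16) ≤ z * z' := mul_le_mul hz hz' (by norm_num) (by linarith)
  have zz0 : 0 < z * z' := lt_of_lt_of_le (by norm_num) zz
  have hko : 0 < κ * ω := by linarith
  have h1 : (z + z') ^ 2 + 2 * (κ + ω) ≤ 3 / 5 := by nlinarith
  have h2 : 9 / 64 ≤ (z + z') ^ 2 := by nlinarith
  rcases lt_or_ge κ 0 with hk | hk
  · have ho : ω < 0 := by
      by_contra hc'
      push Not at hc'
      exact absurd (mul_nonpos_of_nonpos_of_nonneg hk.le hc') (not_le.2 hko)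
    have e1 : 5 * (-κ) ≤ 2 * z ^ 2 := by nlinarith [sq_nonneg κ]
    have e2 : 5 * (-ω) ≤ 2 * z' ^ 2 := by nlinarith [sq_nonneg ω]
    have e3 : (5 * (-κ)) * (5 * (-ω)) ≤ (2 * z ^ 2) * (2 * z' ^ 2) :=
      mul_le_mul e1 e2 (by linarith) (by positivity)
    have e4 : z * z' ≤ 1 := mul_le_one₀ hz1 (by linarith) hz'1
    have e5 : (z * z') * (z * z') ≤ z * z' * 1 := mul_le_mul_of_nonneg_left e4 zz0.le
    nlinarith
  · have ho : 0 ≤ ω := by
      by_contra hc'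
      push Not at hc'
      exact absurd (mul_nonpos_of_nonneg_of_nonpos hk hc'.le) (not_le.2 hko)
    have e1 : 4 * (κ * ω) ≤ (κ + ω) ^ 2 := by nlinarith [sq_nonneg (κ - ω)]
    have e2 : (5625 / 100000 : ℝ) ≤ (κ + ω) ^ 2 := by
      norm_num at zz ⊢
      linarith
    have e3 : (237 / 1000 : ℝ) ≤ κ + ω := by
      by_contra hc'
      push Not at hc'
      have e4 := pow_le_pow_left₀ (by linarith : 0 ≤ κ + ω) hc'.le 2
      norm_num at e4 e2
      linarith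
    linarith

end Vale.Agent.P052.R3.H473F
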