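import Mathlib

/-!
P052: the real inequality of the cells for five points in five-space (after helper506's proof for
four points in four-space).
-/

namespace Vale.Agent.P052.R3.H473F

/-- two complementary rectangles -/
theorem rect {A B κ ω : ℝ} (hκ : 0 ≤ κ) (hω : 0 ≤ ω) (hκA : κ < A) (hωB : ω < B) :
    0 ≤ 5 * (A * B) - 5 * (κ * ω) - 5 * ((A - κ) * (B - ω)) ∧
      4 * (5 * (κ * ω) * (5 * ((A - κ) * (B - ω)))) ≤
        (5 * (A * B) - 5 * (κ * ω) - 5 * ((A - κ) * (B - ω))) ^ 2 := by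
  have h1 : 0 ≤ κ * (B - ω) := mul_nonneg hκ (by linarith)
  have h2 : 0 ≤ ω * (A - κ) := mul_nonneg hω (by linarith)
  have h3 : 5 * (A * B) - 5 * (κ * ω) - 5 * ((A - κ) * (B - ω)) =
      5 * (κ * (B - ω) + ω * (A - κ)) := by ring
  constructor
  · rw [h3]
    positivity
  · rw [h3]
    have h4 : (5 * (κ * (B - ω) + ω * (A - κ))) ^ 2 -
        4 * (5 * (κ * ω) * (5 * ((A - κ) * (B - ω)))) =
        25 * (κ * (B - ω) - ω * (A - κ)) ^ 2 := by ring
    have h5 : 0 ≤ 25 * (κ * (B - ω) - ω * (A - κ)) ^ 2 := by positivity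
    linarith

theorem sq_small {z : ℝ} (h1 : 0 ≤ z) (h2 : z ≤ 3 / 16) : 119 / 128 ≤ 1 - 2 * z ^ 2 := by
  have h := pow_le_pow_left₀ h1 h2 2
  norm_num at h ⊢
  linarith

theorem half_le {z : ℝ} (hz1 : -(1 / 2) ≤ z) (hz2 : z ≤ 3 / 16) : 1 / 2 ≤ 1 - 2 * z ^ 2 := by
  have h : z ^ 2 ≤ (1 / 2) ^ 2 := by
    apply sq_le_sq'
    · linarith
    · linarith
  norm_num at h ⊢
  linarith

/-- the heights have mixed signs -/
theorem mixed {z z' : ℝ} (hz1 : -(1 / 2) ≤ z) (hz2 : z ≤ 3 / 16) (hz'1 : -(1 / 2) ≤ z')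
    (hz'2 : z' ≤ 3 / 16) (h : z * z' < 0) :
    -(3 / 32) ≤ z * z' ∧ ((1 / 2 ≤ 1 - 2 * z ^ 2 ∧ 119 / 128 ≤ 1 - 2 * z' ^ 2) ∨
      (119 / 128 ≤ 1 - 2 * z ^ 2 ∧ 1 / 2 ≤ 1 - 2 * z' ^ 2)) := by
  rcases lt_or_ge z 0 with hz | hz
  · have hz' : 0 ≤ z' := by
      by_contra hc
      push Not at hc
      exact absurd (mul_pos_of_neg_of_neg hz hc) (not_lt.2 h.le)
    refine ⟨?_, Or.inl ⟨half_le hz1 hz2, sq_small hz' hz'2⟩⟩
    have e : (-z) * z' ≤ 1 / 2 * (3 / 16) := mul_le_mul (by linarith) hz'2 hz' (by norm_num)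
    linarith
  · have hz' : z' < 0 := by
      by_contra hc
      push Not at hc
      exact absurd (mul_nonneg hz hc) (not_le.2 h)
    refine ⟨?_, Or.inr ⟨sq_small hz hz2, half_le hz'1 hz'2⟩⟩
    have e : z * (-z') ≤ 3 / 16 * (1 / 2) := mul_le_mul hz2 (by linarith) (by linarith)
      (by norm_num)
    linarith

/-- lower bounds from quadratic inequalities -/
theorem root {A r q s : ℝ} (hA : 0 < A) (hq : 0 ≤ q) (_hr : 0 ≤ r) (h : s ≤ A + q * A ^ 2)
    (hs : r + q * r ^ 2 < s) : r ≤ A := by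
  by_contra hc
  push Not at hc
  have e := pow_le_pow_left₀ hA.le hc.le 2
  have e2 := mul_le_mul_of_nonneg_left e hq
  linarith

/-- the polynomial inequality of the mixed case -/
theorem poly_mixed {P u v : ℝ} (hP0 : 0 ≤ P) (hP1 : P ≤ 1) (hP : 2214 / 10000 ≤ P ^ 2)
    (hu : P ^ 2 - 3 / 16 ≤ u) (hv : 2 * P - 3 / 16 ≤ v) (h0 : 0 ≤ 5 * P ^ 2 - u - v)
    (h : 4 * (u * v) ≤ (5 * P ^ 2 - u - v) ^ 2) : False := by
  have hP2 : 4705 / 10000 ≤ P := by
    by_contra hc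
    push Not at hc
    have e := pow_le_pow_left₀ hP0 hc.le 2
    norm_num at e hP
    linarith
  have e1 : 5 * P ^ 2 - u - v ≤ 4 * P ^ 2 - 2 * P + 3 / 8 := by linarith
  have e2 : (5 * P ^ 2 - u - v) ^ 2 ≤ (4 * P ^ 2 - 2 * P + 3 / 8) ^ 2 := pow_le_pow_left₀ h0 e1 2
  have e3 : (P ^ 2 - 3 / 16) * (2 * P - 3 / 16) ≤ u * v :=
    mul_le_mul hu hv (by linarith) (by linarith)
  have e4 : 4 * ((P ^ 2 - 3 / 16) * (2 * P - 3 / 16)) - (4 * P ^ 2 - 2 * P + 3 / 8) ^ 2 =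
      4 * P ^ 2 * (-4 * P ^ 2 + 6 * P - 31 / 16) := by ring
  have e5 : 0 < -4 * P ^ 2 + 6 * P - 31 / 16 := by
    have e6 : 0 ≤ (P - 4705 / 10000) * (1 - P) := mul_nonneg (by linarith) (by linarith)
    nlinarith
  have e6 : 0 < 4 * P ^ 2 * (-4 * P ^ 2 + 6 * P - 31 / 16) := mul_pos (by linarith) e5
  linarith

theorem sqrt_facts {A B : ℝ} (a0 : 0 ≤ A) (b0 : 0 ≤ B) (hA1 : A ≤ 1) (hB1 : B ≤ 1) :
    Real.sqrt (A * B) ≤ 1 ∧ 2 * Real.sqrt (A * B) ≤ A + B := by
  constructor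
  · rw [Real.sqrt_le_one]
    exact mul_le_one₀ hA1 b0 hB1
  · have e1 : (2 * Real.sqrt (A * B)) ^ 2 ≤ (A + B) ^ 2 := by
      rw [mul_pow, Real.sq_sqrt (mul_nonneg a0 b0)]
      nlinarith [sq_nonneg (A - B)]
    exact (pow_le_pow_iff_left₀ (by positivity) (by linarith) two_ne_zero).1 e1

/-- product bound in the mixed case, both parameters positive;
`a = A - κ`, `b = B - ω`, `S` and `T` the two squared slopes. -/
theorem prod_big {A B a b S T : ℝ} (hA : 0 < A) (hB : 0 < B) (ha : 0 < a) (hb : 0 < b)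
    (haA : a ≤ A) (hbB : b ≤ B) (hv : A + B - 3 / 16 ≤ 5 * (a * b)) (hS : 1 / 2 ≤ S)
    (hT : 119 / 128 ≤ T) (hCA : S ≤ A + 5 * ((A - a) * a)) (hCB : T ≤ B + 5 * ((B - b) * b)) :
    2214 / 10000 ≤ A * B := by
  by_contra hc
  push Not at hc
  -- basic bounds
  have bA : 348 / 1000 ≤ A := by
    refine root (q := 5 / 4) (s := 1 / 2) hA (by norm_num) (by norm_num) ?_ (by norm_num)
    have : 5 * ((A - a) * a) ≤ 5 / 4 * A ^ 2 := by
      have e : 5 / 4 * A ^ 2 - 5 * ((A - a) * a) = 5 / 4 * (A - 2 * a) ^ 2 := by ring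
      have := sq_nonneg (A - 2 * a)
      linarith
    linarith
  have bB : 55 / 100 ≤ B := by
    refine root (q := 5 / 4) (s := 119 / 128) hB (by norm_num) (by norm_num) ?_ (by norm_num)
    have : 5 * ((B - b) * b) ≤ 5 / 4 * B ^ 2 := by
      have e : 5 / 4 * B ^ 2 - 5 * ((B - b) * b) = 5 / 4 * (B - 2 * b) ^ 2 := by ring
      have := sq_nonneg (B - 2 * b)
      linarith
    linarith
  have hAB0 : 0 < A * B := mul_pos hA hB
  have hAB1 : (348 / 1000 : ℝ) * (55 / 100) ≤ A * B := mul_le_mul bA bB (by norm_num) hA.le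
  -- the square root
  obtain ⟨P, hP0, hP⟩ : ∃ P : ℝ, 0 ≤ P ∧ P ^ 2 = A * B :=
    ⟨Real.sqrt (A * B), Real.sqrt_nonneg _, Real.sq_sqrt hAB0.le⟩
  have hPs : 2 * P ≤ A + B := by
    have e1 : (2 * P) ^ 2 ≤ (A + B) ^ 2 := by
      rw [mul_pow, hP]
      nlinarith [sq_nonneg (A - B)]
    exact (pow_le_pow_iff_left₀ (by positivity) (by linarith) two_ne_zero).1 e1
  have hPu : P ≤ 471 / 1000 := by
    by_contra hc'
    push Not at hc'
    have e := pow_le_pow_left₀ (by norm_num) hc'.le 2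
    norm_num at e hc
    linarith
  have hPl : 4 / 10 ≤ P := by
    by_contra hc'
    push Not at hc'
    have e := pow_le_pow_left₀ hP0 hc'.le 2
    norm_num at e hAB1
    linarith
  have hts : 68 / 100 * (A * B) ≤ a * b := by
    have e : 0 ≤ (471 / 1000 - P) * (P - 4 / 10) := mul_nonneg (by linarith) (by linarith)
    have e2 : 34 / 10 * P ^ 2 ≤ 2 * P - 3 / 16 := by nlinarith
    rw [hP] at e2
    linarith
  have ta : 68 / 100 * A ≤ a := by
    have e : a * b ≤ a * B := mul_le_mul_of_nonneg_left hbB ha.le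
    have e2 : 68 / 100 * A * B ≤ a * B := by linarith
    exact le_of_mul_le_mul_right e2 hB
  have tb : 68 / 100 * B ≤ b := by
    have e : a * b ≤ A * b := mul_le_mul_of_nonneg_right haA hb.le
    have e2 : 68 / 100 * B * A ≤ b * A := by linarith
    exact le_of_mul_le_mul_right e2 hA
  have crude : ∀ {x y : ℝ}, 0 < x → 68 / 100 * x ≤ y → 5 * ((x - y) * y) ≤ 1088 / 1000 * x ^ 2 := by
    intro x y hx hy
    have e : 0 ≤ (y - 68 / 100 * x) * (y - 32 / 100 * x) := mul_nonneg (by linarith) (by linarith)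
    nlinarith
  have fine : ∀ {x y : ℝ}, 0 < x → 8246 / 10000 * x ≤ y →
      5 * ((x - y) * y) ≤ 7231742 / 10000000 * x ^ 2 := by
    intro x y hx hy
    have e : 0 ≤ (y - 8246 / 10000 * x) * (y - 1754 / 10000 * x) :=
      mul_nonneg (by linarith) (by linarith)
    nlinarith
  rcases le_or_gt (8246 / 10000 * A) a with h | h
  · have c1 := fine hA h
    have c2 := crude hB tb
    have d1 : 39 / 100 ≤ A :=
      root (q := 7231742 / 10000000) (s := 1 / 2) hA (by norm_num) (by norm_num) (by linarith)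
        (by norm_num)
    have d2 : 5727 / 10000 ≤ B :=
      root (q := 1088 / 1000) (s := 119 / 128) hB (by norm_num) (by norm_num) (by linarith)
        (by norm_num)
    have d3 : (39 / 100 : ℝ) * (5727 / 10000) ≤ A * B := mul_le_mul d1 d2 (by norm_num) hA.le
    norm_num at d3 hc
    linarith
  · have h' : 8246 / 10000 * B ≤ b := by
      by_contra hc'
      push Not at hc'
      have e : a * b ≤ 8246 / 10000 * A * (8246 / 10000 * B) :=
        mul_le_mul h.le hc'.le hb.le (by positivity)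
      nlinarith
    have c1 := crude hA ta
    have c2 := fine hB h'
    have d1 : 3594 / 10000 ≤ A :=
      root (q := 1088 / 1000) (s := 1 / 2) hA (by norm_num) (by norm_num) (by linarith)
        (by norm_num)
    have d2 : 6366 / 10000 ≤ B :=
      root (q := 7231742 / 10000000) (s := 119 / 128) hB (by norm_num) (by norm_num) (by linarith)
        (by norm_num)
    have d3 : (3594 / 10000 : ℝ) * (6366 / 10000) ≤ A * B := mul_le_mul d1 d2 (by norm_num) hA.le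
    norm_num at d3 hc
    linarith

/-- both parameters nonnegative, heights of equal sign -/
theorem case_same {A B κ ω τ : ℝ} (a0 : 0 < A) (b0 : 0 < B) (hA1 : A ≤ 1) (hB1 : B ≤ 1)
    (hκA : κ < A) (hωB : ω < B) (hk0 : 0 ≤ κ) (ho : 0 ≤ ω) (hτ : 0 ≤ τ)
    (hv : A + B + 2 * τ ≤ 5 * ((A - κ) * (B - ω))) (hu : A * B + 2 * τ ≤ 5 * (κ * ω)) :
    False := by
  obtain ⟨r1, r2⟩ := rect hk0 ho hκA hωB
  have AB0 : 0 < A * B := mul_pos a0 b0
  have e1 : A * B ≤ A := mul_le_of_le_one_right a0.le hB1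
  have e2 : A * B ≤ B := mul_le_of_le_one_left b0.le hA1
  set u := 5 * (κ * ω) with hudef
  set v := 5 * ((A - κ) * (B - ω)) with hvdef
  have e3 : A * B ≤ u := by linarith
  have e4 : 2 * (A * B) ≤ v := by linarith
  have e5 : (5 * (A * B) - u - v) ^ 2 ≤ (2 * (A * B)) ^ 2 :=
    pow_le_pow_left₀ r1 (by linarith) 2
  have e6 : A * B * (2 * (A * B)) ≤ u * v := mul_le_mul e3 e4 (by positivity) (by linarith)
  have e7 : 0 < (A * B) ^ 2 := by positivity
  have e8 : (2 * (A * B)) ^ 2 = 4 * (A * B) ^ 2 := by ring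
  have e9 : A * B * (2 * (A * B)) = 2 * (A * B) ^ 2 := by ring
  linarith

/-- both parameters nonnegative, heights of mixed sign -/
theorem case_mixed {A B κ ω S T τ : ℝ} (a0 : 0 < A) (b0 : 0 < B) (hA1 : A ≤ 1) (hB1 : B ≤ 1)
    (hκA : κ < A) (hωB : ω < B) (hk0 : 0 ≤ κ) (ho : 0 ≤ ω) (hτ : -(3 / 32) ≤ τ)
    (hv : A + B + 2 * τ ≤ 5 * ((A - κ) * (B - ω))) (hu : A * B + 2 * τ ≤ 5 * (κ * ω))
    (hCA : S + 5 * κ ^ 2 ≤ A * (1 + 5 * κ)) (hCB : T + 5 * ω ^ 2 ≤ B * (1 + 5 * ω))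
    (t2 : (1 / 2 ≤ S ∧ 119 / 128 ≤ T) ∨ (119 / 128 ≤ S ∧ 1 / 2 ≤ T)) : False := by
  obtain ⟨r1, r2⟩ := rect hk0 ho hκA hωB
  have AB0 : 0 < A * B := mul_pos a0 b0
  have hCA' : S ≤ A + 5 * ((A - (A - κ)) * (A - κ)) := by
    have e : A + 5 * ((A - (A - κ)) * (A - κ)) = A * (1 + 5 * κ) - 5 * κ ^ 2 := by ring
    linarith
  have hCB' : T ≤ B + 5 * ((B - (B - ω)) * (B - ω)) := by
    have e : B + 5 * ((B - (B - ω)) * (B - ω)) = B * (1 + 5 * ω) - 5 * ω ^ 2 := by ring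
    linarith
  have hbig : 2214 / 10000 ≤ A * B := by
    rcases t2 with ⟨t3, t4⟩ | ⟨t3, t4⟩
    · exact prod_big a0 b0 (by linarith) (by linarith) (by linarith) (by linarith)
        (by linarith) t3 t4 hCA' hCB'
    · have e := prod_big (a := B - ω) (b := A - κ) b0 a0 (by linarith) (by linarith)
        (by linarith) (by linarith)
        (by rw [mul_comm (B - ω)]; linarith) t4 t3 hCB' hCA'
      rwa [mul_comm] at e
  have hP2 : Real.sqrt (A * B) ^ 2 = A * B := Real.sq_sqrt AB0.le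
  obtain ⟨s1, s2⟩ := sqrt_facts a0.le b0.le hA1 hB1
  refine poly_mixed (P := Real.sqrt (A * B)) (u := 5 * (κ * ω)) (v := 5 * ((A - κ) * (B - ω)))
    (Real.sqrt_nonneg _) s1 (by rw [hP2]; exact hbig) (by rw [hP2]; linarith) (by linarith) ?_ ?_
  · rw [hP2]; exact r1
  · rw [hP2]; exact r2

theorem real_cell5 {A B κ ω z z' E : ℝ} (hA1 : A ≤ 1) (hB1 : B ≤ 1) (hκA : κ < A) (hωB : ω < B)
    (hκ : -(1/5) < κ) (hω : -(1/5) < ω) (hz1 : -(1/2) ≤ z) (hz2 : z ≤ 3/16) (hz'1 : -(1/2) ≤ z')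
    (hz'2 : z' ≤ 3/16) (hCA : 1 - 2 * z ^ 2 + 5 * κ ^ 2 ≤ A * (1 + 5 * κ))
    (hCB : 1 - 2 * z' ^ 2 + 5 * ω ^ 2 ≤ B * (1 + 5 * ω)) (h1 : A * B ≤ E)
    (h2 : A * (1 + 5 * ω) + B * (1 + 5 * κ) - 5 * (A * B) ≤ E) :
    5 * (κ * ω) < E + 2 * (z * z') := by
  by_contra hcon
  push Not at hcon
  have za := half_le hz1 hz2
  have zb := half_le hz'1 hz'2
  have a0 : 0 < A := by
    have h3 : 0 < A * (1 + 5 * κ) := by
      have := sq_nonneg κ
      linarith
    exact (pos_iff_pos_of_mul_pos h3).2 (by linarith)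
  have b0 : 0 < B := by
    have h3 : 0 < B * (1 + 5 * ω) := by
      have := sq_nonneg ω
      linarith
    exact (pos_iff_pos_of_mul_pos h3).2 (by linarith)
  have AB0 : 0 < A * B := mul_pos a0 b0
  have qa : 1 - 2 * z ^ 2 ≤ A + 5 / 4 * A ^ 2 := by
    have e : A + 5 / 4 * A ^ 2 - (A * (1 + 5 * κ) - 5 * κ ^ 2) = 5 / 4 * (A - 2 * κ) ^ 2 := by ring
    have := sq_nonneg (A - 2 * κ)
    linarith
  have qb : 1 - 2 * z' ^ 2 ≤ B + 5 / 4 * B ^ 2 := by
    have e : B + 5 / 4 * B ^ 2 - (B * (1 + 5 * ω) - 5 * ω ^ 2) = 5 / 4 * (B - 2 * ω) ^ 2 := by ring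
    have := sq_nonneg (B - 2 * ω)
    linarith
  -- bounds when both parameters are negative
  have neg : κ < 0 → ω < 0 → (1 - 2 * z ^ 2) * (1 - 2 * z' ^ 2) < A * B ∧ κ * ω < 1 / 25 := by
    intro hk ho
    have e1 : 1 - 2 * z ^ 2 < A := by
      have h3 : A * κ < 0 := mul_neg_of_pos_of_neg a0 hk
      have := sq_nonneg κ
      linarith
    have e2 : 1 - 2 * z' ^ 2 < B := by
      have h3 : B * ω < 0 := mul_neg_of_pos_of_neg b0 ho
      have := sq_nonneg ω
      linarith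
    refine ⟨mul_lt_mul'' e1 e2 (by linarith) (by linarith), ?_⟩
    have e3 : -κ * -ω < 1 / 5 * (1 / 5) :=
      mul_lt_mul'' (by linarith) (by linarith) (by linarith) (by linarith)
    linarith
  -- the third bound
  have hv : A + B + 2 * (z * z') ≤ 5 * ((A - κ) * (B - ω)) := by
    have e1 : 5 * ((A - κ) * (B - ω)) = 5 * (A * B) - 5 * (A * ω) - 5 * (B * κ) + 5 * (κ * ω) := by
      ring
    rw [e1]
    linarith
  have hu : A * B + 2 * (z * z') ≤ 5 * (κ * ω) := by linarith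
  by_cases hτ : 0 ≤ z * z'
  · have hpos : 0 < κ * ω := by linarith
    rcases lt_or_ge κ 0 with hk | hk
    · have ho : ω < 0 := by
        by_contra hc
        push Not at hc
        exact absurd (mul_nonpos_of_nonpos_of_nonneg hk.le hc) (not_le.2 hpos)
      obtain ⟨e1, e2⟩ := neg hk ho
      have e3 : (1 : ℝ) / 2 * (1 / 2) ≤ (1 - 2 * z ^ 2) * (1 - 2 * z' ^ 2) :=
        mul_le_mul za zb (by norm_num) (by linarith)
      linarith
    · have hk0 : 0 ≤ κ := hk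
      have ho : 0 ≤ ω := by
        by_contra hc
        push Not at hc
        exact absurd (mul_nonpos_of_nonneg_of_nonpos hk0 hc.le) (not_le.2 hpos)
      exact case_same a0 b0 hA1 hB1 hκA hωB hk0 ho hτ hv hu
  · push Not at hτ
    obtain ⟨t1, t2⟩ := mixed hz1 hz2 hz'1 hz'2 hτ
    have hAB : 1914 / 10000 ≤ A * B := by
      rcases t2 with ⟨t3, t4⟩ | ⟨t3, t4⟩
      · have e1 : 348 / 1000 ≤ A := root (q := 5 / 4) (s := 1 / 2) a0 (by norm_num) (by norm_num)
          (t3.trans qa) (by norm_num)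
        have e2 : 55 / 100 ≤ B := root (q := 5 / 4) (s := 119 / 128) b0 (by norm_num)
          (by norm_num) (t4.trans qb) (by norm_num)
        have e3 : (348 / 1000 : ℝ) * (55 / 100) ≤ A * B := mul_le_mul e1 e2 (by norm_num) a0.le
        norm_num at e3 ⊢
        linarith
      · have e1 : 348 / 1000 ≤ B := root (q := 5 / 4) (s := 1 / 2) b0 (by norm_num) (by norm_num)
          (t4.trans qb) (by norm_num)
        have e2 : 55 / 100 ≤ A := root (q := 5 / 4) (s := 119 / 128) a0 (by norm_num)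
          (by norm_num) (t3.trans qa) (by norm_num)
        have e3 : (55 / 100 : ℝ) * (348 / 1000) ≤ A * B := mul_le_mul e2 e1 (by norm_num) a0.le
        norm_num at e3 ⊢
        linarith
    have hpos : 0 < κ * ω := by linarith
    rcases lt_or_ge κ 0 with hk | hk
    · have ho : ω < 0 := by
        by_contra hc
        push Not at hc
        exact absurd (mul_nonpos_of_nonpos_of_nonneg hk.le hc) (not_le.2 hpos)
      obtain ⟨e1, e2⟩ := neg hk ho
      have e3 : (46 / 100 : ℝ) ≤ (1 - 2 * z ^ 2) * (1 - 2 * z' ^ 2) := by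
        rcases t2 with ⟨t3, t4⟩ | ⟨t3, t4⟩
        · have e5 : (1 : ℝ) / 2 * (119 / 128) ≤ (1 - 2 * z ^ 2) * (1 - 2 * z' ^ 2) :=
            mul_le_mul t3 t4 (by norm_num) (by linarith)
          norm_num at e5 ⊢
          linarith
        · have e5 : (119 : ℝ) / 128 * (1 / 2) ≤ (1 - 2 * z ^ 2) * (1 - 2 * z' ^ 2) :=
            mul_le_mul t3 t4 (by norm_num) (by linarith)
          norm_num at e5 ⊢
          linarith
      linarith
    · have hk0 : 0 ≤ κ := hk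
      have ho : 0 ≤ ω := by
        by_contra hc
        push Not at hc
        exact absurd (mul_nonpos_of_nonneg_of_nonpos hk0 hc.le) (not_le.2 hpos)
      exact case_mixed a0 b0 hA1 hB1 hκA hωB hk0 ho t1 hv hu hCA hCB t2

end Vale.Agent.P052.R3.H473F
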