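import Vale.Agent.P052.R3.H473.Near5
import Vale.Agent.P052.R3.H473.RCap5
import Vale.Agent.P052.R3.H473.RCell5

set_option autoImplicit false

/-!
P052: the two real cores and the theorem on five points in five-space.
-/

namespace Vale.Agent.P052.R3.H473F

theorem sum_sq_le (e : Fin 5 → ℝ) (he : ∀ j, 0 ≤ e j) {A : ℝ} (hA : ∀ j, e j ≤ A) :
    ∑ j, e j ^ 2 ≤ A * ∑ j, e j := by
  rw [Finset.mul_sum]
  refine Finset.sum_le_sum fun j _ => ?_
  rw [sq]
  exact mul_le_mul_of_nonneg_right (hA j) (he j)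

theorem lin_le (e f : Fin 5 → ℝ) {A B : ℝ} (hA : ∀ j, e j ≤ A) (hB : ∀ j, f j ≤ B) :
    A * ∑ j, f j + B * ∑ j, e j - 5 * (A * B) ≤ ∑ j, e j * f j := by
  have h : 0 ≤ ∑ j, (A - e j) * (B - f j) :=
    Finset.sum_nonneg fun j _ => mul_nonneg (sub_nonneg.2 (hA j)) (sub_nonneg.2 (hB j))
  simp only [Fin.sum_univ_five] at h ⊢
  linarith

theorem kappa_lt (e : Fin 5 → ℝ) {A ka : ℝ} (hA : ∀ j, e j ≤ A) (se : ∑ j, e j = 1 + 5 * ka) :
    ka < A := by
  rw [Fin.sum_univ_five] at se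
  linarith [hA 0, hA 1, hA 2, hA 3, hA 4]

theorem cellsStmt : CellsStmt := by
  intro e f ka om z z' he he1 hf hf1 se se2 sf sf2 z1 z2 z1' z2' i hi hi'
  have hCA : 1 - 2 * z ^ 2 + 5 * ka ^ 2 ≤ e i * (1 + 5 * ka) := by
    rw [← se, ← se2]; exact sum_sq_le e he hi
  have hCB : 1 - 2 * z' ^ 2 + 5 * om ^ 2 ≤ f i * (1 + 5 * om) := by
    rw [← sf, ← sf2]; exact sum_sq_le f hf hi'
  have hz : z ^ 2 ≤ 1 / 4 := by nlinarith
  have hz' : z' ^ 2 ≤ 1 / 4 := by nlinarith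
  have hka : -(1 / 5) < ka := by
    by_contra hc
    push Not at hc
    have h1 : e i * (1 + 5 * ka) ≤ 0 :=
      mul_nonpos_of_nonneg_of_nonpos (he i) (by linarith)
    nlinarith [sq_nonneg ka]
  have hom : -(1 / 5) < om := by
    by_contra hc
    push Not at hc
    have h1 : f i * (1 + 5 * om) ≤ 0 :=
      mul_nonpos_of_nonneg_of_nonpos (hf i) (by linarith)
    nlinarith [sq_nonneg om]
  have h1 : e i * f i ≤ ∑ j, e j * f j :=
    Finset.single_le_sum (f := fun j => e j * f j) (fun j _ => mul_nonneg (he j) (hf j))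
      (Finset.mem_univ i)
  have h2 : e i * (1 + 5 * om) + f i * (1 + 5 * ka) - 5 * (e i * f i) ≤ ∑ j, e j * f j := by
    rw [← se, ← sf]; exact lin_le e f hi hi'
  exact real_cell5 (he1 i) (hf1 i) (kappa_lt e hi se)
    (kappa_lt f hi' sf) hka hom z1 z2 z1' z2' hCA hCB h1 h2

theorem sum_sq_le_sum (e : Fin 5 → ℝ) (he : ∀ j, 0 ≤ e j) (he1 : ∀ j, e j ≤ 1) :
    ∑ j, e j ^ 2 ≤ ∑ j, e j := by
  have h := sum_sq_le e he he1
  rwa [one_mul] at h

theorem capStmt : CapStmt := by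
  intro e f ka om z z' he he1 hf hf1 se se2 sf sf2 z1 z2 z1' z2'
  have h0 : 0 ≤ ∑ j, e j * f j := Finset.sum_nonneg fun j _ => mul_nonneg (he j) (hf j)
  have ha : 5 * ka ^ 2 ≤ 5 * ka + 2 * z ^ 2 := by
    have h := sum_sq_le_sum e he he1
    rw [se, se2] at h
    linarith
  have hb : 5 * om ^ 2 ≤ 5 * om + 2 * z' ^ 2 := by
    have h := sum_sq_le_sum f hf hf1
    rw [sf, sf2] at h
    linarith
  refine real_cap5 z1 z2 z1' z2' ha hb h0 ?_
  have h1 : (∑ j, (e j + f j)) ^ 2 ≤ 5 * ∑ j, (e j + f j) ^ 2 := by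
    have h := sq_sum_le_card_mul_sum_sq (s := (Finset.univ : Finset (Fin 5)))
      (f := fun j => e j + f j)
    simpa using h
  have h2 : ∑ j, (e j + f j) = 2 + 5 * ka + 5 * om := by
    rw [Finset.sum_add_distrib, se, sf]; ring
  have h3 : ∑ j, (e j + f j) ^ 2 = (1 - 2 * z ^ 2 + 5 * ka ^ 2) +
      (1 - 2 * z' ^ 2 + 5 * om ^ 2) + 2 * ∑ j, e j * f j := by
    rw [← se2, ← sf2]
    simp only [Fin.sum_univ_five]
    ring
  rw [h2, h3] at h1
  exact h1

/-- A bounded set of five-space whose closure contains five points at mutual distances at least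
`(1 - ε)` times its diameter is a union of six sets of smaller diameter. -/
theorem five_near : ∃ ε : ℝ, 0 < ε ∧
    ∀ X : Set (EuclideanSpace ℝ (Fin 5)), Bornology.IsBounded X → 0 < Metric.diam X →
      ∀ t : Fin 5 → EuclideanSpace ℝ (Fin 5), (∀ a, t a ∈ closure X) →
      (∀ a b, a ≠ b → (1 - ε) * Metric.diam X ≤ dist (t a) (t b)) → IsSmallerCover X 6 :=
  five_near_of cellsStmt capStmt

end Vale.Agent.P052.R3.H473F
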