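import Vale.Agent.P052.R3.H473.Pair5
import Vale.Agent.P052.Defs

set_option autoImplicit false

/-!
P052: a bounded set of five-space whose closure contains five points at almost maximal mutual
distances is a union of six sets of smaller diameter.
-/

namespace Vale.Agent.P052.R3.H473F

open scoped RealInnerProductSpace

/-- the configuration space: tetrahedron, normal, two points -/
abbrev Conf := (Fin 5 → E5) × E5 × (E5 × E5)

theorem unif (C : Set Conf) (hC : IsClosed C) (hsub : C ⊆ Metric.closedBall 0 1)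
    (hd : ∀ p ∈ C, ∀ j k, dist (p.1 j) (p.1 k) ≤ 1)
    (hlt : ∀ p ∈ C, (∀ j k, j ≠ k → dist (p.1 j) (p.1 k) = 1) → dist p.2.2.1 p.2.2.2 < 1) :
    ∃ ε : ℝ, 0 < ε ∧ ∀ p ∈ C, (∀ j k, j ≠ k → 1 - ε ≤ dist (p.1 j) (p.1 k)) →
      dist p.2.2.1 p.2.2.2 ≤ 1 - ε := by
  rcases C.eq_empty_or_nonempty with h0 | hne
  · exact ⟨1, one_pos, fun p hp => absurd hp (by rw [h0]; exact Set.notMem_empty p)⟩
  have hK : IsCompact C := (isCompact_closedBall (0 : Conf) 1).of_isClosed_subset hC hsub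
  let G : Conf → ℝ := fun p => min ((∑ j, ∑ k, dist (p.1 j) (p.1 k)) - 19) (dist p.2.2.1 p.2.2.2)
  have hG : Continuous G := by fun_prop
  obtain ⟨q, hq, hmax⟩ := hK.exists_isMaxOn hne hG.continuousOn
  have hSle : ∀ p ∈ C, (∑ j, ∑ k, dist (p.1 j) (p.1 k)) ≤ 20 := by
    intro p hp
    have h1 := hd p hp
    simp only [Fin.sum_univ_five, dist_self]
    linarith [h1 0 1, h1 0 2, h1 0 3, h1 0 4, h1 1 0, h1 1 2, h1 1 3, h1 1 4, h1 2 0, h1 2 1,
      h1 2 3, h1 2 4, h1 3 0, h1 3 1, h1 3 2, h1 3 4, h1 4 0, h1 4 1, h1 4 2, h1 4 3]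
  have hGq : G q < 1 := by
    by_cases hS : (∑ j, ∑ k, dist (q.1 j) (q.1 k)) = 20
    · refine (min_le_right _ _).trans_lt (hlt q hq ?_)
      have h1 := hd q hq
      simp only [Fin.sum_univ_five, dist_self] at hS
      intro j k hjk
      have c1 := h1 0 1
      have c2 := h1 0 2
      have c3 := h1 0 3
      have c4 := h1 0 4
      have c5 := h1 1 0
      have c6 := h1 1 2
      have c7 := h1 1 3
      have c8 := h1 1 4
      have c9 := h1 2 0
      have c10 := h1 2 1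
      have c11 := h1 2 3
      have c12 := h1 2 4
      have c13 := h1 3 0
      have c14 := h1 3 1
      have c15 := h1 3 2
      have c16 := h1 3 4
      have c17 := h1 4 0
      have c18 := h1 4 1
      have c19 := h1 4 2
      have c20 := h1 4 3
      fin_cases j <;> fin_cases k <;> first | exact absurd rfl hjk | (simp; linarith)
    · refine (min_le_left _ _).trans_lt ?_
      have := lt_of_le_of_ne (hSle q hq) hS
      linarith
  refine ⟨(1 - G q) / 21, by linarith, fun p hp hpd => ?_⟩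
  have h1 : G p ≤ G q := hmax hp
  have h2 : 20 * (1 - (1 - G q) / 21) ≤ ∑ j, ∑ k, dist (p.1 j) (p.1 k) := by
    simp only [Fin.sum_univ_five, dist_self]
    have c1 := hpd 0 1 (by decide)
    have c2 := hpd 0 2 (by decide)
    have c3 := hpd 0 3 (by decide)
    have c4 := hpd 0 4 (by decide)
    have c5 := hpd 1 0 (by decide)
    have c6 := hpd 1 2 (by decide)
    have c7 := hpd 1 3 (by decide)
    have c8 := hpd 1 4 (by decide)
    have c9 := hpd 2 0 (by decide)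
    have c10 := hpd 2 1 (by decide)
    have c11 := hpd 2 3 (by decide)
    have c12 := hpd 2 4 (by decide)
    have c13 := hpd 3 0 (by decide)
    have c14 := hpd 3 1 (by decide)
    have c15 := hpd 3 2 (by decide)
    have c16 := hpd 3 4 (by decide)
    have c17 := hpd 4 0 (by decide)
    have c18 := hpd 4 1 (by decide)
    have c19 := hpd 4 2 (by decide)
    have c20 := hpd 4 3 (by decide)
    linarith
  rcases min_le_iff.1 h1 with h3 | h3
  · exfalso
    linarith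
  · linarith

/-- the common closed conditions -/
def Base : Set Conf := {p | p.1 0 = 0 ∧ (∀ j k, dist (p.1 j) (p.1 k) ≤ 1) ∧ ‖p.2.1‖ = 1 ∧
  (∀ i, ⟪p.1 i - p.1 0, p.2.1⟫ = 0) ∧ (∀ j, dist p.2.2.1 (p.1 j) ≤ 1) ∧
  (∀ j, dist p.2.2.2 (p.1 j) ≤ 1)}

theorem isClosed_base : IsClosed Base := by
  unfold Base
  simp only [Set.setOf_and, Set.setOf_forall]
  refine IsClosed.inter ?_ (IsClosed.inter ?_ (IsClosed.inter ?_ (IsClosed.inter ?_
    (IsClosed.inter ?_ ?_))))
  · exact isClosed_eq (by fun_prop) continuous_const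
  · exact isClosed_iInter fun j => isClosed_iInter fun k =>
      isClosed_le (by fun_prop) continuous_const
  · exact isClosed_eq (by fun_prop) continuous_const
  · exact isClosed_iInter fun j => isClosed_eq (by fun_prop) continuous_const
  · exact isClosed_iInter fun j => isClosed_le (by fun_prop) continuous_const
  · exact isClosed_iInter fun j => isClosed_le (by fun_prop) continuous_const

theorem base_sub : Base ⊆ Metric.closedBall 0 1 := by
  intro p hp
  obtain ⟨h0, h1, h2, h3, h4, h5⟩ := hp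
  rw [mem_closedBall_zero_iff]
  refine max_le ?_ (max_le h2.le (max_le ?_ ?_))
  · refine (pi_norm_le_iff_of_nonneg zero_le_one).2 fun j => ?_
    have := h1 j 0
    rwa [h0, dist_zero_right] at this
  · have := h4 0
    rwa [h0, dist_zero_right] at this
  · have := h5 0
    rwa [h0, dist_zero_right] at this

def CellSet (i : Fin 5) : Set Conf := Base ∩ {p | (∀ j, dist p.2.2.1 (p.1 i) ≤ dist p.2.2.1 (p.1 j)) ∧
  (∀ j, dist p.2.2.2 (p.1 i) ≤ dist p.2.2.2 (p.1 j)) ∧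
  -(1 / 2) ≤ ⟪p.2.2.1 - p.1 0, p.2.1⟫ ∧ ⟪p.2.2.1 - p.1 0, p.2.1⟫ ≤ 3 / 16 ∧
  -(1 / 2) ≤ ⟪p.2.2.2 - p.1 0, p.2.1⟫ ∧ ⟪p.2.2.2 - p.1 0, p.2.1⟫ ≤ 3 / 16}

def CapSet : Set Conf := Base ∩ {p | 3 / 16 ≤ ⟪p.2.2.1 - p.1 0, p.2.1⟫ ∧
  3 / 16 ≤ ⟪p.2.2.2 - p.1 0, p.2.1⟫}

theorem isClosed_cell (i : Fin 5) : IsClosed (CellSet i) := by
  refine isClosed_base.inter ?_
  simp only [Set.setOf_and, Set.setOf_forall]
  refine IsClosed.inter ?_ (IsClosed.inter ?_ (IsClosed.inter ?_ (IsClosed.inter ?_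
    (IsClosed.inter ?_ ?_))))
  · exact isClosed_iInter fun j => isClosed_le (by fun_prop) (by fun_prop)
  · exact isClosed_iInter fun j => isClosed_le (by fun_prop) (by fun_prop)
  · exact isClosed_le continuous_const (by fun_prop)
  · exact isClosed_le (by fun_prop) continuous_const
  · exact isClosed_le continuous_const (by fun_prop)
  · exact isClosed_le (by fun_prop) continuous_const

theorem isClosed_cap : IsClosed CapSet := by
  refine isClosed_base.inter ?_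
  simp only [Set.setOf_and]
  refine IsClosed.inter ?_ ?_
  · exact isClosed_le continuous_const (by fun_prop)
  · exact isClosed_le continuous_const (by fun_prop)

theorem eps_cell (H : CellsStmt) (i : Fin 5) : ∃ ε : ℝ, 0 < ε ∧ ∀ p ∈ CellSet i,
    (∀ j k, j ≠ k → 1 - ε ≤ dist (p.1 j) (p.1 k)) → dist p.2.2.1 p.2.2.2 ≤ 1 - ε := by
  refine unif _ (isClosed_cell i) (fun p hp => base_sub hp.1) (fun p hp => hp.1.2.1) ?_
  intro p hp he
  exact cell_lt H ⟨he, hp.1.2.2.1, hp.1.2.2.2.1⟩ hp.1.2.2.2.2.1 hp.1.2.2.2.2.2 hp.2.1 hp.2.2.1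
    hp.2.2.2.1 hp.2.2.2.2.1 hp.2.2.2.2.2.1 hp.2.2.2.2.2.2

theorem eps_cap (H : CapStmt) : ∃ ε : ℝ, 0 < ε ∧ ∀ p ∈ CapSet,
    (∀ j k, j ≠ k → 1 - ε ≤ dist (p.1 j) (p.1 k)) → dist p.2.2.1 p.2.2.2 ≤ 1 - ε := by
  refine unif _ isClosed_cap (fun p hp => base_sub hp.1) (fun p hp => hp.1.2.1) ?_
  intro p hp he
  exact cap_lt H ⟨he, hp.1.2.2.1, hp.1.2.2.2.1⟩ hp.1.2.2.2.2.1 hp.1.2.2.2.2.2 hp.2.1 hp.2.2

/-- One `ε` for the five cells and the cap. -/
theorem eps_all (H1 : CellsStmt) (H2 : CapStmt) : ∃ ε : ℝ, 0 < ε ∧ ∀ p,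
    ((∃ i, p ∈ CellSet i) ∨ p ∈ CapSet) →
    (∀ j k, j ≠ k → 1 - ε ≤ dist (p.1 j) (p.1 k)) → dist p.2.2.1 p.2.2.2 ≤ 1 - ε := by
  choose ε he hε using eps_cell H1
  obtain ⟨δ, hd, hδ⟩ := eps_cap H2
  let μ := min δ (min (ε 4) (min (min (ε 0) (ε 1)) (min (ε 2) (ε 3))))
  have hμ : 0 < μ :=
    lt_min hd (lt_min (he 4) (lt_min (lt_min (he 0) (he 1)) (lt_min (he 2) (he 3))))
  have hμd : μ ≤ δ := min_le_left _ _
  have hμi : ∀ i, μ ≤ ε i := by
    intro i
    have h0 : μ ≤ min (ε 4) (min (min (ε 0) (ε 1)) (min (ε 2) (ε 3))) := min_le_right _ _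
    have h1 : μ ≤ min (min (ε 0) (ε 1)) (min (ε 2) (ε 3)) := h0.trans (min_le_right _ _)
    fin_cases i
    · exact h1.trans ((min_le_left _ _).trans (min_le_left _ _))
    · exact h1.trans ((min_le_left _ _).trans (min_le_right _ _))
    · exact h1.trans ((min_le_right _ _).trans (min_le_left _ _))
    · exact h1.trans ((min_le_right _ _).trans (min_le_right _ _))
    · exact h0.trans (min_le_left _ _)
  refine ⟨μ, hμ, fun p hp hpd => ?_⟩
  rcases hp with ⟨i, hi⟩ | hc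
  · have h1 := hε i p hi fun j k hjk => by linarith [hpd j k hjk, hμi i]
    linarith [hμi i]
  · have h1 := hδ p hc fun j k hjk => by linarith [hpd j k hjk]
    linarith

theorem five_near_of (H1 : CellsStmt) (H2 : CapStmt) : ∃ ε : ℝ, 0 < ε ∧
    ∀ X : Set (EuclideanSpace ℝ (Fin 5)), Bornology.IsBounded X → 0 < Metric.diam X →
      ∀ t : Fin 5 → EuclideanSpace ℝ (Fin 5), (∀ a, t a ∈ closure X) →
      (∀ a b, a ≠ b → (1 - ε) * Metric.diam X ≤ dist (t a) (t b)) → IsSmallerCover X 6 := by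
  obtain ⟨ε, hε, hall⟩ := eps_all H1 H2
  refine ⟨ε, hε, fun X hX hD t ht htd => ?_⟩
  set D := Metric.diam X with hDdef
  have hDi : 0 ≤ D⁻¹ := inv_nonneg.2 hD.le
  have hcl : ∀ x ∈ closure X, ∀ y ∈ closure X, dist x y ≤ D := by
    intro x hx y hy
    rw [hDdef, ← Metric.diam_closure]
    exact Metric.dist_le_diam_of_mem hX.closure hx hy
  let φ : E5 → E5 := fun x => D⁻¹ • (x - t 0)
  have hφ : ∀ x y, dist (φ x) (φ y) = D⁻¹ * dist x y := by
    intro x y
    rw [dist_eq_norm, dist_eq_norm, ← smul_sub, norm_smul, Real.norm_of_nonneg hDi]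
    congr 2
    abel
  have hφ1 : ∀ x ∈ closure X, ∀ y ∈ closure X, dist (φ x) (φ y) ≤ 1 := by
    intro x hx y hy
    rw [hφ, inv_mul_le_iff₀ hD, mul_one]
    exact hcl x hx y hy
  let v : Fin 5 → E5 := fun a => φ (t a)
  have hv0 : v 0 = 0 := by simp [v, φ]
  obtain ⟨n, hn, ho, hlow⟩ : ∃ n : E5, ‖n‖ = 1 ∧ (∀ i, ⟪v i - v 0, n⟫ = 0) ∧
      ∀ x ∈ X, -(1 / 2) ≤ ⟪φ x - v 0, n⟫ := by
    obtain ⟨n, hn, ho⟩ := exists_normal v
    by_cases h : ∀ x ∈ X, -(1 / 2) ≤ ⟪φ x - v 0, n⟫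
    · exact ⟨n, hn, ho, h⟩
    · push Not at h
      obtain ⟨x0, hx0, hlt⟩ := h
      refine ⟨-n, by rw [norm_neg, hn], fun i => by rw [inner_neg_right, ho i, neg_zero], ?_⟩
      intro y hy
      rw [inner_neg_right]
      have h1 : ⟪φ y - φ x0, n⟫ ≤ 1 := by
        refine (real_inner_le_norm _ _).trans ?_
        rw [hn, mul_one, ← dist_eq_norm]
        exact hφ1 y (subset_closure hy) x0 (subset_closure hx0)
      have h2 : ⟪φ y - φ x0, n⟫ = ⟪φ y - v 0, n⟫ - ⟪φ x0 - v 0, n⟫ := by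
        rw [← inner_sub_left]
        congr 1
        abel
      linarith
  have hvd : ∀ j k, j ≠ k → 1 - ε ≤ dist (v j) (v k) := by
    intro j k hjk
    have h1 := htd j k hjk
    rw [hφ, le_inv_mul_iff₀ hD]
    linarith
  have hbase : ∀ x ∈ X, ∀ y ∈ X, ((v, n, (φ x, φ y)) : Conf) ∈ Base := by
    intro x hx y hy
    exact ⟨hv0, fun j k => hφ1 _ (ht j) _ (ht k), hn, ho,
      fun j => hφ1 _ (subset_closure hx) _ (ht j), fun j => hφ1 _ (subset_closure hy) _ (ht j)⟩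
  let cap : Set E5 := {x | x ∈ X ∧ 3 / 16 ≤ ⟪φ x - v 0, n⟫}
  let cell : Fin 5 → Set E5 := fun i => {x | x ∈ X ∧ ⟪φ x - v 0, n⟫ ≤ 3 / 16 ∧
    ∀ j, dist (φ x) (v i) ≤ dist (φ x) (v j)}
  have hfin : ∀ S : Set E5, (∀ x ∈ S, ∀ y ∈ S, dist (φ x) (φ y) ≤ 1 - ε) → Metric.diam S < D := by
    intro S hS
    have hε1 : (1 - ε) * D < D := by nlinarith
    rcases S.eq_empty_or_nonempty with h0 | ⟨x0, hx0⟩
    · rw [h0, Metric.diam_empty]; exact hD
    · have h00 := hS x0 hx0 x0 hx0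
      rw [dist_self] at h00
      refine (Metric.diam_le_of_forall_dist_le (mul_nonneg h00 hD.le) ?_).trans_lt hε1
      intro x hx y hy
      have h1 := hS x hx y hy
      rw [hφ, inv_mul_le_iff₀ hD] at h1
      linarith
  refine ⟨Fin.cases cap cell, ?_, ?_⟩
  · ext x
    simp only [Set.mem_iUnion]
    constructor
    · rintro ⟨i, hi⟩
      refine Fin.cases (fun hi => hi.1) (fun j hi => hi.1) i hi
    · intro hx
      rcases le_total (3 / 16) ⟪φ x - v 0, n⟫ with h | h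
      · exact ⟨0, hx, h⟩
      · obtain ⟨i, hi⟩ := Finite.exists_min fun j => dist (φ x) (v j)
        exact ⟨i.succ, hx, h, hi⟩
  · intro i
    refine Fin.cases ?_ (fun j => ?_) i
    · refine hfin _ fun x hx y hy => ?_
      exact hall (v, n, (φ x, φ y)) (Or.inr ⟨hbase x hx.1 y hy.1, hx.2, hy.2⟩) hvd
    · refine hfin _ fun x hx y hy => ?_
      exact hall (v, n, (φ x, φ y)) (Or.inl ⟨j, hbase x hx.1 y hy.1, hx.2.2, hy.2.2,
        hlow x hx.1, hx.2.1, hlow y hy.1, hy.2.1⟩) hvd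

end Vale.Agent.P052.R3.H473F
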