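import Vale.Agent.P052.R3.H473.Coord

set_option autoImplicit false

/-!
P052: the two pair inequalities for points close to a regular tetrahedron in four-space.
-/

namespace Vale.Agent.P052.R3.H473

open scoped RealInnerProductSpace

theorem sq_dist_coord {v : Fin 4 → E4} {n : E4} (h : Tet v n) {x : E4} {α β γ ζ : ℝ}
    (hx : x - v 0 = α • (v 1 - v 0) + β • (v 2 - v 0) + γ • (v 3 - v 0) + ζ • n) :
    dist x (v 0) ^ 2 = α ^ 2 + β ^ 2 + γ ^ 2 + α * β + α * γ + β * γ + ζ ^ 2 ∧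
    dist x (v 1) ^ 2 =
      (α - 1) ^ 2 + β ^ 2 + γ ^ 2 + (α - 1) * β + (α - 1) * γ + β * γ + ζ ^ 2 ∧
    dist x (v 2) ^ 2 =
      α ^ 2 + (β - 1) ^ 2 + γ ^ 2 + α * (β - 1) + α * γ + (β - 1) * γ + ζ ^ 2 ∧
    dist x (v 3) ^ 2 =
      α ^ 2 + β ^ 2 + (γ - 1) ^ 2 + α * β + α * (γ - 1) + β * (γ - 1) + ζ ^ 2 := by
  refine ⟨?_, ?_, ?_, ?_⟩
  · rw [dist_eq_norm, hx, h.form]
  · have e : x - v 1 = (α - 1) • (v 1 - v 0) + β • (v 2 - v 0) + γ • (v 3 - v 0) + ζ • n := by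
      rw [show x - v 1 = (x - v 0) - (v 1 - v 0) by abel, hx]
      module
    rw [dist_eq_norm, e, h.form]
  · have e : x - v 2 = α • (v 1 - v 0) + (β - 1) • (v 2 - v 0) + γ • (v 3 - v 0) + ζ • n := by
      rw [show x - v 2 = (x - v 0) - (v 2 - v 0) by abel, hx]
      module
    rw [dist_eq_norm, e, h.form]
  · have e : x - v 3 = α • (v 1 - v 0) + β • (v 2 - v 0) + (γ - 1) • (v 3 - v 0) + ζ • n := by
      rw [show x - v 3 = (x - v 0) - (v 3 - v 0) by abel, hx]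
      module
    rw [dist_eq_norm, e, h.form]

/-- The numbers `e_j = 1 - |x - v_j|^2`. -/
noncomputable def ev (v : Fin 4 → E4) (x : E4) (j : Fin 4) : ℝ := 1 - dist x (v j) ^ 2

/-- `κ(x)`. -/
noncomputable def kp (v : Fin 4 → E4) (x : E4) : ℝ := (∑ j, ev v x j - 1) / 4

theorem sum_ev (v : Fin 4 → E4) (x : E4) : ∑ j, ev v x j = 1 + 4 * kp v x := by
  unfold kp; ring

theorem sum_ev_sq {v : Fin 4 → E4} {n : E4} (h : Tet v n) (x : E4) :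
    ∑ j, ev v x j ^ 2 = 1 - 2 * ⟪x - v 0, n⟫ ^ 2 + 4 * kp v x ^ 2 := by
  obtain ⟨α, β, γ, ζ, hx⟩ := h.coord x
  obtain ⟨h0, h1, h2, h3⟩ := sq_dist_coord h hx
  rw [h.height hx]
  unfold kp
  simp only [Fin.sum_univ_four, ev, h0, h1, h2, h3]
  ring

theorem sq_dist_pair {v : Fin 4 → E4} {n : E4} (h : Tet v n) (x y : E4) :
    dist x y ^ 2 = 1 - (∑ j, ev v x j * ev v y j + 2 * (⟪x - v 0, n⟫ * ⟪y - v 0, n⟫) -
      4 * (kp v x * kp v y)) := by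
  obtain ⟨α, β, γ, ζ, hx⟩ := h.coord x
  obtain ⟨α', β', γ', ζ', hy⟩ := h.coord y
  obtain ⟨h0, h1, h2, h3⟩ := sq_dist_coord h hx
  obtain ⟨k0, k1, k2, k3⟩ := sq_dist_coord h hy
  have e : x - y = (α - α') • (v 1 - v 0) + (β - β') • (v 2 - v 0) +
      (γ - γ') • (v 3 - v 0) + (ζ - ζ') • n := by
    rw [show x - y = (x - v 0) - (y - v 0) by abel, hx, hy]
    module
  rw [h.height hx, h.height hy]
  unfold kp
  simp only [Fin.sum_univ_four, ev, h0, h1, h2, h3, k0, k1, k2, k3]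
  rw [dist_eq_norm, e, h.form]
  ring

/-- The real core for the cells. -/
def CellsStmt : Prop := ∀ (e f : Fin 4 → ℝ) (ka om z z' : ℝ), (∀ j, 0 ≤ e j) → (∀ j, e j ≤ 1) →
  (∀ j, 0 ≤ f j) → (∀ j, f j ≤ 1) → ∑ j, e j = 1 + 4 * ka →
  ∑ j, e j ^ 2 = 1 - 2 * z ^ 2 + 4 * ka ^ 2 → ∑ j, f j = 1 + 4 * om →
  ∑ j, f j ^ 2 = 1 - 2 * z' ^ 2 + 4 * om ^ 2 → -(1 / 2) ≤ z → z ≤ 1 / 5 → -(1 / 2) ≤ z' →
  z' ≤ 1 / 5 → ∀ i, (∀ j, e j ≤ e i) → (∀ j, f j ≤ f i) →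
  4 * (ka * om) < ∑ j, e j * f j + 2 * (z * z')

/-- The real core for the cap. -/
def CapStmt : Prop := ∀ (e f : Fin 4 → ℝ) (ka om z z' : ℝ), (∀ j, 0 ≤ e j) → (∀ j, e j ≤ 1) →
  (∀ j, 0 ≤ f j) → (∀ j, f j ≤ 1) → ∑ j, e j = 1 + 4 * ka →
  ∑ j, e j ^ 2 = 1 - 2 * z ^ 2 + 4 * ka ^ 2 → ∑ j, f j = 1 + 4 * om →
  ∑ j, f j ^ 2 = 1 - 2 * z' ^ 2 + 4 * om ^ 2 → 1 / 5 ≤ z → z ≤ 1 → 1 / 5 ≤ z' →
  z' ≤ 1 → 4 * (ka * om) < ∑ j, e j * f j + 2 * (z * z')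

theorem ev_le_one (v : Fin 4 → E4) (x : E4) (j : Fin 4) : ev v x j ≤ 1 := by
  unfold ev; nlinarith [sq_nonneg (dist x (v j))]

theorem ev_nonneg {v : Fin 4 → E4} {x : E4} (hx : ∀ j, dist x (v j) ≤ 1) (j : Fin 4) :
    0 ≤ ev v x j := by
  unfold ev
  have := hx j
  have h0 : 0 ≤ dist x (v j) := dist_nonneg
  nlinarith

theorem ev_le {v : Fin 4 → E4} {x : E4} {i : Fin 4} (hx : ∀ j, dist x (v i) ≤ dist x (v j))
    (j : Fin 4) : ev v x j ≤ ev v x i := by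
  unfold ev
  have := hx j
  have h0 : 0 ≤ dist x (v i) := dist_nonneg
  nlinarith

theorem height_le_one {v : Fin 4 → E4} {n : E4} (h : Tet v n) {x : E4}
    (hx : ∀ j, dist x (v j) ≤ 1) : ⟪x - v 0, n⟫ ≤ 1 := by
  have h1 := real_inner_le_norm (x - v 0) n
  rw [h.unit, mul_one, ← dist_eq_norm] at h1
  exact h1.trans (hx 0)

theorem dist_lt_of {d s : ℝ} (hd : 0 ≤ d) (h : d ^ 2 = 1 - s) (hs : 0 < s) : d < 1 := by
  nlinarith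

theorem cell_lt (H : CellsStmt) {v : Fin 4 → E4} {n : E4} (h : Tet v n) {x y : E4}
    (hx : ∀ j, dist x (v j) ≤ 1) (hy : ∀ j, dist y (v j) ≤ 1) {i : Fin 4}
    (hxi : ∀ j, dist x (v i) ≤ dist x (v j)) (hyi : ∀ j, dist y (v i) ≤ dist y (v j))
    (x1 : -(1 / 2) ≤ ⟪x - v 0, n⟫) (x2 : ⟪x - v 0, n⟫ ≤ 1 / 5)
    (y1 : -(1 / 2) ≤ ⟪y - v 0, n⟫) (y2 : ⟪y - v 0, n⟫ ≤ 1 / 5) : dist x y < 1 := by
  have h1 := H (ev v x) (ev v y) (kp v x) (kp v y) _ _ (ev_nonneg hx) (ev_le_one v x)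
    (ev_nonneg hy) (ev_le_one v y) (sum_ev v x) (sum_ev_sq h x) (sum_ev v y) (sum_ev_sq h y)
    x1 x2 y1 y2 i (ev_le hxi) (ev_le hyi)
  exact dist_lt_of dist_nonneg (sq_dist_pair h x y) (by linarith)

theorem cap_lt (H : CapStmt) {v : Fin 4 → E4} {n : E4} (h : Tet v n) {x y : E4}
    (hx : ∀ j, dist x (v j) ≤ 1) (hy : ∀ j, dist y (v j) ≤ 1)
    (x1 : 1 / 5 ≤ ⟪x - v 0, n⟫) (y1 : 1 / 5 ≤ ⟪y - v 0, n⟫) : dist x y < 1 := by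
  have h1 := H (ev v x) (ev v y) (kp v x) (kp v y) _ _ (ev_nonneg hx) (ev_le_one v x)
    (ev_nonneg hy) (ev_le_one v y) (sum_ev v x) (sum_ev_sq h x) (sum_ev v y) (sum_ev_sq h y)
    x1 (height_le_one h hx) y1 (height_le_one h hy)
  exact dist_lt_of dist_nonneg (sq_dist_pair h x y) (by linarith)

end Vale.Agent.P052.R3.H473
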