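import Vale.Agent.P052.R3.H473.Coord5

set_option autoImplicit false

/-!
P052: the two pair inequalities for points close to five points at mutual distance one in
five-space.
-/

namespace Vale.Agent.P052.R3.H473F

open scoped RealInnerProductSpace

/-- the quadratic form -/
def Q (a b c d z : ℝ) : ℝ :=
  a ^ 2 + b ^ 2 + c ^ 2 + d ^ 2 + a * b + a * c + a * d + b * c + b * d + c * d + z ^ 2

theorem sq_dist_coord {v : Fin 5 → E5} {n : E5} (h : Tet v n) {x : E5} {α β γ δ ζ : ℝ}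
    (hx : x - v 0 = α • (v 1 - v 0) + β • (v 2 - v 0) + γ • (v 3 - v 0) + δ • (v 4 - v 0) +
      ζ • n) :
    dist x (v 0) ^ 2 = Q α β γ δ ζ ∧ dist x (v 1) ^ 2 = Q (α - 1) β γ δ ζ ∧
    dist x (v 2) ^ 2 = Q α (β - 1) γ δ ζ ∧ dist x (v 3) ^ 2 = Q α β (γ - 1) δ ζ ∧
    dist x (v 4) ^ 2 = Q α β γ (δ - 1) ζ := by
  unfold Q
  refine ⟨?_, ?_, ?_, ?_, ?_⟩
  · rw [dist_eq_norm, hx, h.form]
  · have e : x - v 1 = (α - 1) • (v 1 - v 0) + β • (v 2 - v 0) + γ • (v 3 - v 0) +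
        δ • (v 4 - v 0) + ζ • n := by
      rw [show x - v 1 = (x - v 0) - (v 1 - v 0) by abel, hx]
      module
    rw [dist_eq_norm, e, h.form]
  · have e : x - v 2 = α • (v 1 - v 0) + (β - 1) • (v 2 - v 0) + γ • (v 3 - v 0) +
        δ • (v 4 - v 0) + ζ • n := by
      rw [show x - v 2 = (x - v 0) - (v 2 - v 0) by abel, hx]
      module
    rw [dist_eq_norm, e, h.form]
  · have e : x - v 3 = α • (v 1 - v 0) + β • (v 2 - v 0) + (γ - 1) • (v 3 - v 0) +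
        δ • (v 4 - v 0) + ζ • n := by
      rw [show x - v 3 = (x - v 0) - (v 3 - v 0) by abel, hx]
      module
    rw [dist_eq_norm, e, h.form]
  · have e : x - v 4 = α • (v 1 - v 0) + β • (v 2 - v 0) + γ • (v 3 - v 0) +
        (δ - 1) • (v 4 - v 0) + ζ • n := by
      rw [show x - v 4 = (x - v 0) - (v 4 - v 0) by abel, hx]
      module
    rw [dist_eq_norm, e, h.form]

/-- The numbers `e_j = 1 - |x - v_j|^2`. -/
noncomputable def ev (v : Fin 5 → E5) (x : E5) (j : Fin 5) : ℝ := 1 - dist x (v j) ^ 2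

/-- `κ(x)`. -/
noncomputable def kp (v : Fin 5 → E5) (x : E5) : ℝ := (∑ j, ev v x j - 1) / 5

theorem sum_ev (v : Fin 5 → E5) (x : E5) : ∑ j, ev v x j = 1 + 5 * kp v x := by
  unfold kp; ring

theorem sum_ev_sq {v : Fin 5 → E5} {n : E5} (h : Tet v n) (x : E5) :
    ∑ j, ev v x j ^ 2 = 1 - 2 * ⟪x - v 0, n⟫ ^ 2 + 5 * kp v x ^ 2 := by
  obtain ⟨α, β, γ, δ, ζ, hx⟩ := h.coord x
  obtain ⟨h0, h1, h2, h3, h4⟩ := sq_dist_coord h hx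
  rw [h.height hx]
  unfold kp
  simp only [Fin.sum_univ_five, ev, h0, h1, h2, h3, h4]
  unfold Q
  ring

theorem sq_dist_pair {v : Fin 5 → E5} {n : E5} (h : Tet v n) (x y : E5) :
    dist x y ^ 2 = 1 - (∑ j, ev v x j * ev v y j + 2 * (⟪x - v 0, n⟫ * ⟪y - v 0, n⟫) -
      5 * (kp v x * kp v y)) := by
  obtain ⟨α, β, γ, δ, ζ, hx⟩ := h.coord x
  obtain ⟨α', β', γ', δ', ζ', hy⟩ := h.coord y
  obtain ⟨h0, h1, h2, h3, h4⟩ := sq_dist_coord h hx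
  obtain ⟨k0, k1, k2, k3, k4⟩ := sq_dist_coord h hy
  have e : x - y = (α - α') • (v 1 - v 0) + (β - β') • (v 2 - v 0) +
      (γ - γ') • (v 3 - v 0) + (δ - δ') • (v 4 - v 0) + (ζ - ζ') • n := by
    rw [show x - y = (x - v 0) - (y - v 0) by abel, hx, hy]
    module
  rw [h.height hx, h.height hy]
  unfold kp
  simp only [Fin.sum_univ_five, ev, h0, h1, h2, h3, h4, k0, k1, k2, k3, k4]
  rw [dist_eq_norm, e, h.form]
  unfold Q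
  ring

/-- The real core for the cells. -/
def CellsStmt : Prop := ∀ (e f : Fin 5 → ℝ) (ka om z z' : ℝ), (∀ j, 0 ≤ e j) → (∀ j, e j ≤ 1) →
  (∀ j, 0 ≤ f j) → (∀ j, f j ≤ 1) → ∑ j, e j = 1 + 5 * ka →
  ∑ j, e j ^ 2 = 1 - 2 * z ^ 2 + 5 * ka ^ 2 → ∑ j, f j = 1 + 5 * om →
  ∑ j, f j ^ 2 = 1 - 2 * z' ^ 2 + 5 * om ^ 2 → -(1 / 2) ≤ z → z ≤ 3 / 16 → -(1 / 2) ≤ z' →
  z' ≤ 3 / 16 → ∀ i, (∀ j, e j ≤ e i) → (∀ j, f j ≤ f i) →
  5 * (ka * om) < ∑ j, e j * f j + 2 * (z * z')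

/-- The real core for the cap. -/
def CapStmt : Prop := ∀ (e f : Fin 5 → ℝ) (ka om z z' : ℝ), (∀ j, 0 ≤ e j) → (∀ j, e j ≤ 1) →
  (∀ j, 0 ≤ f j) → (∀ j, f j ≤ 1) → ∑ j, e j = 1 + 5 * ka →
  ∑ j, e j ^ 2 = 1 - 2 * z ^ 2 + 5 * ka ^ 2 → ∑ j, f j = 1 + 5 * om →
  ∑ j, f j ^ 2 = 1 - 2 * z' ^ 2 + 5 * om ^ 2 → 3 / 16 ≤ z → z ≤ 1 → 3 / 16 ≤ z' →
  z' ≤ 1 → 5 * (ka * om) < ∑ j, e j * f j + 2 * (z * z')

theorem ev_le_one (v : Fin 5 → E5) (x : E5) (j : Fin 5) : ev v x j ≤ 1 := by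
  unfold ev; nlinarith [sq_nonneg (dist x (v j))]

theorem ev_nonneg {v : Fin 5 → E5} {x : E5} (hx : ∀ j, dist x (v j) ≤ 1) (j : Fin 5) :
    0 ≤ ev v x j := by
  unfold ev
  have := hx j
  have h0 : 0 ≤ dist x (v j) := dist_nonneg
  nlinarith

theorem ev_le {v : Fin 5 → E5} {x : E5} {i : Fin 5} (hx : ∀ j, dist x (v i) ≤ dist x (v j))
    (j : Fin 5) : ev v x j ≤ ev v x i := by
  unfold ev
  have := hx j
  have h0 : 0 ≤ dist x (v i) := dist_nonneg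
  nlinarith

theorem height_le_one {v : Fin 5 → E5} {n : E5} (h : Tet v n) {x : E5}
    (hx : ∀ j, dist x (v j) ≤ 1) : ⟪x - v 0, n⟫ ≤ 1 := by
  have h1 := real_inner_le_norm (x - v 0) n
  rw [h.unit, mul_one, ← dist_eq_norm] at h1
  exact h1.trans (hx 0)

theorem dist_lt_of {d s : ℝ} (hd : 0 ≤ d) (h : d ^ 2 = 1 - s) (hs : 0 < s) : d < 1 := by
  nlinarith

theorem cell_lt (H : CellsStmt) {v : Fin 5 → E5} {n : E5} (h : Tet v n) {x y : E5}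
    (hx : ∀ j, dist x (v j) ≤ 1) (hy : ∀ j, dist y (v j) ≤ 1) {i : Fin 5}
    (hxi : ∀ j, dist x (v i) ≤ dist x (v j)) (hyi : ∀ j, dist y (v i) ≤ dist y (v j))
    (x1 : -(1 / 2) ≤ ⟪x - v 0, n⟫) (x2 : ⟪x - v 0, n⟫ ≤ 3 / 16)
    (y1 : -(1 / 2) ≤ ⟪y - v 0, n⟫) (y2 : ⟪y - v 0, n⟫ ≤ 3 / 16) : dist x y < 1 := by
  have h1 := H (ev v x) (ev v y) (kp v x) (kp v y) _ _ (ev_nonneg hx) (ev_le_one v x)
    (ev_nonneg hy) (ev_le_one v y) (sum_ev v x) (sum_ev_sq h x) (sum_ev v y) (sum_ev_sq h y)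
    x1 x2 y1 y2 i (ev_le hxi) (ev_le hyi)
  exact dist_lt_of dist_nonneg (sq_dist_pair h x y) (by linarith)

theorem cap_lt (H : CapStmt) {v : Fin 5 → E5} {n : E5} (h : Tet v n) {x y : E5}
    (hx : ∀ j, dist x (v j) ≤ 1) (hy : ∀ j, dist y (v j) ≤ 1)
    (x1 : 3 / 16 ≤ ⟪x - v 0, n⟫) (y1 : 3 / 16 ≤ ⟪y - v 0, n⟫) : dist x y < 1 := by
  have h1 := H (ev v x) (ev v y) (kp v x) (kp v y) _ _ (ev_nonneg hx) (ev_le_one v x)
    (ev_nonneg hy) (ev_le_one v y) (sum_ev v x) (sum_ev_sq h x) (sum_ev v y) (sum_ev_sq h y)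
    x1 (height_le_one h hx) y1 (height_le_one h hy)
  exact dist_lt_of dist_nonneg (sq_dist_pair h x y) (by linarith)

end Vale.Agent.P052.R3.H473F
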